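import Vale.Agent.P283R.Fk.St
import Vale.Agent.P283R.Ck.Hlk62

/-!
# P283R, block FK: integer Helly over the smaller bases
-/

set_option linter.all false

open Set

noncomputable section

namespace Vale.Agent.P283R.Fk

open Vale.Agent.P287D Vale.Agent.P283M Cx Cy Cq
open Vale.Agent.P283R.To (mon)
open Cq.H62 (zz)
open Ck.H62 (mo mon')

/-- **HLK** -/
theorem hlk38 : HLK := fun rs0 res B q ε q0 ε0 => by
  classical
  obtain ⟨W, m, m2, hm'⟩ := mon' (2 ^ (3 * B + 1) + 2 * B) q ε q0 ε0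
  refine ⟨W, m, m2, fun L K _ _ _ _ _ _ c r ρ b y u T l s n ψ κ Q ξ I J t kk hl hd hJ tc S ts => ?_⟩
  have fm := S.pk.fm
  have ok := S.pk.ok
  obtain ⟨fin, ⟨f, hf⟩, -⟩ := car13 L K c (r + ρ) b _ T (J ∪ b.S) fm
  let J' := J.filter (· ∈ b.T)
  have y0 : ∀ j, y j ≠ 0 := fun j =>
    Fin.append_left y u j ▸ fm.ext.ind.ne_zero (Fin.castAdd ρ j)
  have f0 : f ≠ 0 := by
    obtain ⟨E, -, rfl⟩ := hf
    exact Finset.prod_ne_zero_iff.2 fun p _ => ok.l0 p
  have z0 : ∀ a, zz b y J' f a ≠ 0 := by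
    rintro (p | j | _)
    exacts [(map_ne_zero _).2 (ok.l0 _), y0 _, (map_ne_zero _).2 f0]
  have s0 : ∀ j, algebraMap L K (s j) ≠ 0 := fun j => (map_ne_zero _).2 (kk.mb.s0 j).1
  have hz : ∀ P, Hz L (Fin.append y u) P → ∀ φ : L, φ ≠ 0 → P.ord (algebraMap L K φ) = 0 :=
    fun P tv φ h => by simpa [hm, mon] using tv φ 0 h
  have cd : Fintype.card (J' ⊕ Fin r ⊕ Unit) + Fintype.card (Fin l) ≤ 3 * B + 1 := by
    simp only [Fintype.card_sum, Fintype.card_coe, Fintype.card_fin, Fintype.card_unique]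
    have := J.card_filter_le (· ∈ b.T)
    have : J'.card = (J.filter (· ∈ b.T)).card := rfl
    omega
  refine Ck.H62.sec z0 s0 fin S.pk.g0 (fun P hP k => ?_) fun t' ht' c' => ?_
  · by_cases tv : Hz L (Fin.append y u) P
    · refine ⟨(S.pk.reg P hP tv).2, ?_, fun j => (hz P tv _ (kk.mb.s0 j).1).ge⟩
      rintro (p | j | _)
      · exact hz P tv _ (ok.l0 _)
      · have := tv 1 (Pi.single (Fin.castAdd ρ j) 1) one_ne_zero
        rwa [hm, map_one, one_mul, mon, Finset.prod_eq_single (Fin.castAdd ρ j)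
          (fun i _ e => by rw [Pi.single_eq_of_ne e, zpow_zero]) (by simp), Pi.single_eq_same,
          zpow_one, Fin.append_left] at this
      · exact hz P tv _ f0
    · have : ∃ p ∉ J ∪ b.S, At P p := by
        by_contra x
        exact k ⟨hP, tv, fun p hp a => x ⟨p, hp, a⟩⟩
      obtain ⟨p, hp, a⟩ := this
      have pT : p ∈ b.T := by
        rcases fm.pg P hP with x | ⟨p', x, a'⟩
        · exact absurd x a.not_trv
        · exact a'.uniq a ▸ x
      have pS : p ∉ b.S := fun x => hp (Finset.mem_union_right _ x)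
      have ol : ∀ p' ∈ b.T, p' ≠ p → p.ord (b.lam p') = 0 := fun p' h e => by
        have := ok.lam p' h p pT
        rwa [ok.sup p pT pS, dotProduct_zero, add_zero, if_neg e.symm] at this
      refine ⟨(S.od.od P hP p hp a).2.2, ?_, fun j => ?_⟩
      · rintro (p' | j | _)
        · have h := Finset.mem_filter.1 p'.2
          exact (a.ord _).trans (by
            rw [ol _ h.2 fun e => hp (Finset.mem_union_left _ (e ▸ h.1)), mul_zero])
        · exact S.y1 P hP p hp a j (y0 j)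
        · obtain ⟨E, e1, rfl⟩ := hf
          refine (a.ord _).trans ?_
          rw [Pl.ord_prod _ _ fun p _ => ok.l0 p, Finset.sum_eq_zero fun p' hp' =>
            ol _ ((e1 p').1 hp').1 fun e => ((e1 p').1 hp').2.2 ⟨P, hP, e ▸ a⟩, mul_zero]
      · rw [a.ord]
        exact mul_nonneg a.e_pos.le ((kk.mb.s0 j).2 p pT pS)
  · let X := Kt (Fin.append y u) T (J ∪ b.S) \ ↑(t' ∪ t)
    let Δ := b.S.filter fun p => ∃ P ∈ t' ∪ t, At P p
    have ec : (t' ∪ t).card ≤ 2 ^ (3 * B + 1) + B := (Finset.card_union_le t' t).trans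
      (add_le_add (c'.trans (Nat.pow_le_pow_right (by norm_num) cd)) tc)
    have dc : Δ.card ≤ 2 ^ (3 * B + 1) + B := by
      refine le_trans ?_ ec
      have : Nonempty (Pl K) := ⟨Q⟩
      choose! F h1 h2 using fun p (hp : p ∈ Δ) => (Finset.mem_filter.1 hp).2
      exact Finset.card_le_card_of_injOn F h1 fun p hp p' hp' e =>
        (h2 p hp).uniq (e ▸ h2 p' hp')
    obtain ⟨b', rs⟩ := rs0 L c l b s Δ kk (Finset.filter_subset _ _)
    have sub : ∀ p ∉ J ∪ b.S, p ∉ J ∪ Δ := fun p hp x =>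
      hp (Finset.union_subset_union_right (Finset.filter_subset _ _) x)
    have dl : ∀ P ∈ T \ X, ∀ p ∈ b.S, At P p → p ∈ Δ := fun P k p hp a => by
      refine Finset.mem_filter.2 ⟨hp, P, ?_, a⟩
      by_contra x
      refine k.2 ⟨⟨k.1, fun tv => ?_, fun p' hp' a' => hp' ?_⟩, x⟩
      · exact a.e_pos.ne' (hz P tv _ (Pb.t_ne p))
      · exact a.uniq a' ▸ Finset.mem_union_right _ hp
    have up : ∀ P ∈ T \ X, ∀ p ∉ J ∪ Δ, At P p → p ∉ J ∪ b.S := fun P k p hp a x =>
      hp ((Finset.mem_union.1 x).elim (Finset.mem_union_left _)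
        fun e => Finset.mem_union_right _ (dl P k p e a))
    have ex : ∀ p ∉ J ∪ b.S, ∀ P ∈ T, At P p → P ∈ T \ X := fun p hp P k a =>
      ⟨k, fun x => x.1.2.2 p hp a⟩
    obtain ⟨pk, ez⟩ := res L K c (r + ρ) b _ (T \ X) l s Δ b' n _ q ε _ κ rs
      (drp47 L K c (r + ρ) b _ T n _ q ε _ κ X S.pk (fin.subset sdiff_subset) fun P k => k.1.2.1) dl
    have S' : Sc W (Δ.card + l) q ε b' y u (T \ X) ψ κ Q ξ I (J ∪ Δ) :=
      { pk := pk
        g0 := S.g0
        rep := ⟨S.rep.nn, fun P k => ⟨⟨(S.rep.sup P k).1, fun x => x.2 (by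
          rw [Finset.coe_union]
          exact Or.inr (ts P x.1 k))⟩, (S.rep.sup P k).2⟩, S.rep.eq⟩
        pos := fun P k p hp hp' a => S.pos P k.1 p hp (up P k p hp' a) a
        od := ⟨rs.hS ▸ Finset.subset_union_right, fun P k p hp a =>
          ez ▸ S.od.od P k.1 p (up P k p hp a) a⟩
        y1 := fun P k p hp a => S.y1 P k.1 p (up P k p hp a) a
        u0 := fun P k => S.u0 P k.1
        wi := fun ν h => (S.wi ν h).trans_eq (by
          congr 1
          ext p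
          refine and_congr_right fun _ => ⟨?_, ?_⟩
          · rintro ⟨hp, P, k, P', k', a, a', e⟩
            exact ⟨sub p hp, P, ex p hp P k a, P', ex p hp P' k' a', a, a', e⟩
          · rintro ⟨hp, P, k, P', k', a, a', e⟩
            exact ⟨up P k p hp a, P, k.1, P', k'.1, a, a', e⟩) }
    have hf' : Ef b' (T \ X) (J ∪ Δ) f := by
      obtain ⟨E, e1, e2⟩ := hf
      refine ⟨E, fun p => (e1 p).trans ⟨?_, ?_⟩, rs.hl ▸ e2⟩
      · rintro ⟨h1, h2, h3⟩
        exact ⟨rs.hT ▸ ⟨h1, fun x => h2 (Finset.mem_union_right _ x.1)⟩, sub p h2,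
          fun ⟨P, k, a⟩ => h3 ⟨P, k.1, a⟩⟩
      · rintro ⟨h1, h2, h3⟩
        rw [rs.hT] at h1
        have h4 : p ∉ J ∪ b.S := fun x => (Finset.mem_union.1 x).elim
          (fun e => h2 (Finset.mem_union_left _ e))
          fun e => h1.2 ⟨e, fun z => h2 (Finset.mem_union_right _ z)⟩
        exact ⟨h1.1, h4, fun ⟨P, k, a⟩ => h3 ⟨P, ex p h4 P k a, a⟩⟩
    have kt : Kt (Fin.append y u) (T \ X) (J ∪ Δ) ⊆ ↑(t' ∪ t) := fun P k => by
      by_contra x
      exact k.1.2 ⟨⟨k.1.1, k.2.1, fun p hp => k.2.2 p (sub p hp)⟩, x⟩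
    have ad : ∀ {a e : ℕ}, a ≤ 2 ^ (3 * B + 1) + B → e ≤ B → a + e ≤ 2 ^ (3 * B + 1) + 2 * B :=
      fun h h' => (add_le_add h h').trans_eq (by ring)
    obtain ⟨φ, mφ, k1, k2⟩ := hm' L K c r ρ b' y u (T \ X) _ ψ κ Q ξ I (J ∪ Δ) f (ad dc hl)
      (hd.trans (le_add_left (by omega)))
      ((Finset.card_union_le _ _).trans (add_comm J.card _ ▸ ad dc hJ)) S' hf' (by
        refine (ncard_le_ncard kt (Finset.finite_toSet _)).trans ?_
        rw [ncard_coe_finset]
        exact ad (e := 0) ec (Nat.zero_le _))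
    obtain ⟨l', w, rfl⟩ := mo (b := b) (J' := J') rs.hl rs.sg (fun p hp =>
      (Finset.mem_union.1 hp.1).imp (fun e => Finset.mem_filter.2 ⟨e, (rs.hT ▸ hp.2 :).1⟩)
        fun e => kk.one p (Finset.mem_filter.1 e).1) mφ
    refine ⟨l', w, fun P hP => ?_, ez ▸ k2⟩
    have k := ht' hP
    have k' : P ∈ T \ X := ⟨k.1, fun x => x.2 (by
      rw [Finset.coe_union]
      exact Or.inl hP)⟩
    exact k1 P ⟨k', k.2.1, fun p hp a => k.2.2 p (up P k' p hp a) a⟩

end Vale.Agent.P283R.Fk
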