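import Vale.Agent.P283R.Fk.St
import Vale.Agent.P283R.Ck.Res45

/-!
# P283R, block FK: the reduction to the wide state
-/

set_option linter.all false

open Set

noncomputable section

namespace Vale.Agent.P283R.Fk

open Vale.Agent.P287D Vale.Agent.P283M Cx Cy Cq

/-- **PQS** -/
theorem pqs38 : PQS := by
  classical
  intro rs0 res crk wik B d q ε hq hε
  obtain ⟨C₀, hC₀⟩ := pgr67 cz60 (gpr36 cz60) (cnr68 cz60) (3 * B + d) d q hq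
  choose W m m2 hW using fun j : ℕ => wik (j + d + B) q ε hq hε
  obtain ⟨C, hC⟩ := spr25 bas90 W d C₀
  have mp : ∀ j, 0 < m j := fun j => lt_of_lt_of_le two_pos (m2 j)
  refine ⟨∏ j ∈ Finset.range (C + 1), m j, (m2 0).trans (Nat.le_of_dvd
    (Finset.prod_pos fun j _ => mp j) (Finset.dvd_prod_of_mem _ (by simp))), ?_⟩
  intro L K _ _ _ _ _ _ c ρ b y T l s n g κ Q lB kk pk ov gq
  obtain ⟨G, I, rfl, o⟩ := orr24 cz60 L K c ρ b y T n d q ε g κ pk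
  obtain ⟨X, χ, ξ, Xf, XK, χ0, χT, χX, χQ, rep, pos⟩ :=
    gt85 L K c ρ b y T n G κ I Q pk.ok pk.fm o ov
  have pk1 := drp47 L K c ρ b y T n d q ε _ κ X pk Xf fun P h => (XK h).2.1
  have o1 : Or b y (T \ X) G κ I := ⟨fun p hb hp => by
      obtain ⟨P, a, b⟩ := o.ex p hb hp
      exact ⟨P, ⟨a, fun h => (XK h).2.2 p hp b⟩, b⟩,
    ⟨o.od.co, fun P h => o.od.od P h.1⟩, fun P h => o.y0 P h.1, fun P h => o.g0 P h.1, o.s0⟩
  have nq : ∀ p ∈ b.S, Nq T Q p ↔ ∃ P, ξ P ≠ 0 ∧ At P p := fun p a => ⟨fun ⟨P, u, v, w⟩ =>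
      ⟨P, (pos P ⟨⟨u, fun z => (w χ χ0 χT (χX P z)).ne' χQ⟩, not_hz96 y v,
        fun p' n e => n (v.uniq e ▸ o.od.co a)⟩).ne', v⟩,
    fun ⟨P, u, v⟩ => ⟨P, (rep.sup P u).1.1, v, fun x x0 hx => (reg21 L K c ρ b y (T \ X) Q ξ x
      pk1.fm rep x0 fun P' z => hx P' z.1).2 P ((rep.nn P).lt_of_ne' u)⟩⟩
  replace gq : Gq B b.S s fun p => ∃ P, ξ P ≠ 0 ∧ At P p :=
    let ⟨Δ, a1, a2, a3, a4⟩ := gq
    ⟨Δ, a1, a2, fun p z => (nq p (a1 z)).1 (a3 p z), fun v z p u w => a4 v z p u ((nq p u).2 w)⟩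
  clear nq
  suffices h : Wc.Sec q (∏ j ∈ Finset.range (C + 1), m j) (cz b y) (T \ X) (lv y G) κ Q from
    (Wc.rpr65 K q _ _ T _ κ Q pk.g0).1 X χ Xf χ0 χT χX χQ h
  generalize T \ X = T at rep pos pk1 o1
  clear o χT ov XK
  have dm := pk.dim
  obtain ⟨ξ', t, rep', ct, ht, pos'⟩ := crk L K c ρ b y T B l s Q ξ kk pk1.fm rep gq
  obtain ⟨T', hT'⟩ : ∃ T', T' = T \ (Kt y T b.S \ ↑t) := ⟨_, rfl⟩
  have sT : T' ⊆ T := hT' ▸ sdiff_subset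
  have inT : ∀ P ∈ T, ∀ p ∉ b.S, At P p → P ∈ T' := fun P a p n k =>
    hT' ▸ ⟨a, fun z => z.1.2.2 p n k⟩
  have int : ∀ P ∈ T', P ∈ Kt y T b.S → P ∈ t := fun P a k =>
    by_contra fun n => (hT'.subset a).2 ⟨k, n⟩
  obtain ⟨Δ, hΔ⟩ : ∃ Δ : Finset (Pl L), ∀ p, p ∈ Δ ↔ p ∈ b.S ∧ ∃ P ∈ t, At P p :=
    ⟨b.S.filter fun p => ∃ P ∈ t, At P p, fun p => Finset.mem_filter⟩
  have cΔ : Δ.card ≤ t.card := Finset.card_le_card_of_forall_subsingleton (fun p P => At P p)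
    (fun p a => ((hΔ p).1 a).2) fun P _ p a p' a' => a.2.uniq a'.2
  have inΔ : ∀ P ∈ T', ∀ p ∈ b.S, At P p → p ∈ Δ := fun P a p k z =>
    (hΔ p).2 ⟨k, P, int P a ⟨sT a, not_hz96 y z, fun p' n z' => n (z.uniq z' ▸ k)⟩, z⟩
  obtain ⟨b', rs⟩ := rs0 L c l b s Δ kk fun p a => ((hΔ p).1 a).1
  have ez : ∀ {ρ : ℕ} (z : Fin ρ → K), cz b' z = cz b z := fun z => funext fun P => by
    rw [cz, cz, rs.hs, rs.hh]
  have pk' : Pk (3 * B + d) d q ε b' y T' (lv y G) κ := Ck.R45.Pk.mono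
    (res L K c ρ b y T' l s Δ b' n d q ε _ κ rs (hT' ▸ drp47 L K c ρ b y T n d q ε _ κ _ pk1
      ((car13 L K c ρ b y T b.S pk1.fm).1.subset sdiff_subset) fun P h => h.1.2.1) inΔ).1 (by omega)
  have sI : b'.S ⊆ I := fun p a => o1.od.co ((hΔ p).1 (rs.hS ▸ a)).1
  have bT : b'.T ⊆ b.T := rs.hT ▸ sdiff_subset
  have o' : Or b' y T' G κ I := ⟨fun p hb hp => by
      obtain ⟨P, a, k⟩ := o1.ex p (bT hb) hp
      exact ⟨P, inT P a p (fun z => hp (o1.od.co z)) k, k⟩,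
    ⟨sI, fun P h => ez y ▸ o1.od.od P (sT h)⟩, fun P h => o1.y0 P (sT h),
    fun P h => o1.g0 P (sT h), fun j p hb hp => by
      obtain e | ⟨i, e⟩ := rs.sg j
      · rw [e, p.ord_one]
      · obtain ⟨i', e'⟩ := kk.sg i
        rw [← e, ← e']
        exact o1.s0 i' p (bT hb) hp⟩
  have rp' : Rep L y T' Q ξ' := ⟨rep'.nn, fun P z => ⟨hT' ▸ ⟨(rep'.sup P z).1, fun k =>
    k.2 ((ht P).2 ⟨k.1, z⟩)⟩, (rep'.sup P z).2⟩, rep'.eq⟩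
  have ps' : ∀ P ∈ Kt y T' I, 0 < ξ' P := fun P a => by
    by_cases k : P ∈ Kt y T b.S
    · exact (rep'.nn P).lt_of_ne' ((ht P).1 (int P a.1 k)).2
    · exact pos' P k (pos P ⟨sT a.1, a.2⟩)
  obtain ⟨u₀, J₀, G0, cJ₀, od₀⟩ := hC₀ L K c ρ b' y T' ε G κ I Q ξ' hε pk' o' rp' ps'
  obtain ⟨G', G'0, pk2, back⟩ := nrm40 L K c ρ b y T n d q ε G κ u₀ pk1 G0
  obtain ⟨J, r, ρ', y', u, sub, cJ, eq, un1, un2, wi⟩ :=
    hC L K c ρ b' y T' _ _ I J₀ dm pk'.ok pk'.fm cJ₀ od₀ sI o'.y0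
  have inJ : ∀ P ∈ T', ∀ p ∉ J, At P p → p ∉ J ∪ b.S := fun P a p k z e =>
    (Finset.mem_union.1 e).elim k fun e => k (sub (od₀.co (rs.hS ▸ inΔ P a p e z)))
  have nS : ∀ p ∉ J ∪ b.S, p ∉ J ∧ p ∉ b.S := fun p a => not_or.1 (mt Finset.mem_union.2 a)
  have eq' : Eqf b y (Fin.append y' u) := ⟨eq.1, eq.2.1, ez y ▸ ez _ ▸ eq.2.2.1, eq.2.2.2⟩
  obtain ⟨e1, e2, e3, e4⟩ := eqf78 L K c ρ b y T _ _ eq'
  obtain ⟨G'', G''0, et⟩ := e4 G' G'0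
  have pk3 := e1 _ _ _ _ _ _ pk2
  have hd : c + r + ρ' = d := by
    have := pk3.dim
    omega
  obtain ⟨ξ'', t', r2, c2, -, s2, f2⟩ := (car13 L K c ρ b' y T' J pk'.fm).2.2 Q ξ' rp'
  have h := hW J.card L K c r ρ' b y' u T l s n G'' _ Q ξ'' I J t' kk (by omega) (by omega)
    (by omega) (by omega)
    ⟨by rw [hd, et]; exact pk3, G''0,
      e2 _ _ ⟨r2.nn, fun P z => ⟨sT (r2.sup P z).1, (r2.sup P z).2⟩, r2.eq⟩,
      fun P hP p hp k a => by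
        rw [f2 P fun z => z.2.2 p (nS p k).1 a]
        exact ps' P ⟨inT P hP p (nS p k).2 a, not_hz96 y a, fun p' hp' a' => hp' (a.uniq a' ▸ hp)⟩,
      e3 _ _ ⟨Finset.subset_union_right, fun P hP p k a =>
        ez y ▸ od₀.od P (inT P hP p (nS p k).2 a) p (fun z => (nS p k).1 (sub z)) a⟩,
      fun P hP p k a => un1 P (inT P hP p (nS p k).2 a) p (nS p k).1 a,
      fun P hP p k a => un2 P (inT P hP p (fun z => k (o1.od.co z)) a) p k a,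
      fun ν ν0 => (wi ν ν0).trans (ncard_le_ncard
        (fun p ⟨a1, a2, P, a3, P', a4, a5, a6⟩ =>
          ⟨a1, inJ P a3 p a2 a5, P, sT a3, P', sT a4, a5, a6⟩)
        (I.finite_toSet.subset fun p a => a.1))⟩
    fun P a z => s2 P ⟨(r2.sup P z).1, (r2.sup P z).2, fun p k e =>
      a.2.2 p (inJ P (r2.sup P z).1 p k e) e⟩ z
  rw [et, funext eq'.2.2.1] at h
  obtain ⟨m', hm'⟩ : m J.card ∣ ∏ j ∈ Finset.range (C + 1), m j :=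
    Finset.dvd_prod_of_mem _ (by simpa using Nat.lt_succ_of_le cJ)
  have m'0 : 0 < m' := Nat.pos_of_ne_zero fun z =>
    (Finset.prod_pos fun j _ => mp j).ne' (hm'.trans (by rw [z, mul_zero]))
  rw [hm']
  exact (Wc.rpr65 K q _ _ T _ κ Q pk1.g0).2 m' m'0 (back _ _ _ h)

/-- **WTS** -/
theorem wts38 (pq : PQK) : WTK := by
  intro l n q ε q0 e0
  obtain ⟨m, m2, H⟩ := pq l (n + 1) q ε q0 e0
  refine ⟨q * m, Nat.mul_pos q0 (by omega), ?_⟩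
  intro L K _ _ _ _ _ _ c ρ l' u Λ Γ Γ' b y s lB k hn a fm gq hi lc nf
  obtain ⟨g, κ, lk, pk⟩ := cdr42 cz60 (Wc.avr95 Wc.cox36 Wc.loc24) n K u Λ Γ Γ' a L _ q c ρ ε b y
    q0 e0 k.ok hn fm hi lc nf
  exact Wc.bkr64 Wc.cox36 n K u Λ Γ Γ' a q m _ g κ q0 m2 lk fun Q o =>
    H L K c ρ b y _ l' s _ g κ Q lB k pk (fun x x0 hx => Wc.ovq22 n K u Λ Γ Γ' a Q x o x0 hx)
      (gq Q fun x x0 hx => Wc.ovq22 n K u Λ Γ Γ' a Q x o x0 hx)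

end Vale.Agent.P283R.Fk
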