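import Vale.Agent.P283R.Fk.A38
import Vale.Agent.P283R.Fk.B38
import Vale.Agent.P283R.Fk.C38
import Vale.Agent.P283R.Fk.D38
import Vale.Agent.P283R.Ck.All
import Vale.Agent.P283R.Tl.E42
import Vale.Agent.P283R.Sl.Fk2

/-!
# P283R, block FK: the closed statements
-/

set_option linter.all false

open Set CategoryTheory AlgebraicGeometry

noncomputable section

namespace Vale.Agent.P283R.Fk

open Vale.Agent.P287D Vale.Agent.P283M Vale.Agent.P297Z Cx Cy Cq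
open Vale.Agent.P283M.Br Vale.Agent.P283R.Gl

/-- **WTK** -/
theorem wtk : WTK := wts38 (pqs38 rs38 Ck.res31 crk38 (hlk38 rs38 Ck.res31))

open Vale.Agent.P289 (Pt) in
open Stm Stm.Var in
theorem seen {X : Var} {W : X.X.Opens} {x : Pt X.X} {Q : Pl X.K} {T : Set (Pl X.K)}
    (hT : ∀ R, R ∈ T ↔ ∃ E : X.PrimeDiv, E.1 ∈ W ∧ pq E = R) (hx : x ∈ W) (dm : Dom Q.ring x)
    (E : X.PrimeDiv) : (∀ a, (∀ x' ∈ W, RegAt a x') → 0 < ord a E → ¬ RegAt a⁻¹ x) ↔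
      ∀ a : X.K, a ≠ 0 → (∀ P ∈ T, 0 ≤ P.ord a) → 0 < (pq E).ord a → 0 < Q.ord a := by
  refine ⟨fun b χ χ0 r p => not_le.1 fun z => ?_, fun k χ g p z => ?_⟩
  · have g : ∀ x' ∈ W, RegAt χ x' := fun x' h => har X _ x' fun F hF =>
      pq_ord F χ ▸ r _ ((hT _).2 ⟨F, hF.mem_open W.isOpen h, rfl⟩)
    exact b χ g (pq_ord E χ ▸ p) ((dm χ (g x hx)).2 χ0
      ((Pl.ord_nonneg_iff _ (inv_ne_zero χ0)).1 (by rw [Pl.ord_inv]; omega)))
  · rw [pq_ord] at p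
    have χ0 : χ ≠ 0 := by
      rintro rfl
      simp at p
    have := k χ χ0 (fun R r => by
      obtain ⟨F, f, rfl⟩ := (hT R).1 r
      exact Pl.ord_nonneg_of_mem _ ((pq_is F _).2 (g _ f))) p
    have w := Pl.ord_nonneg_of_mem _ (dm _ z).1
    rw [Pl.ord_inv] at w
    omega

end Vale.Agent.P283R.Fk

namespace Vale.Agent.P283R.Sl

open Vale.Agent.P287D Vale.Agent.P283M Vale.Agent.P297Z Cx Cy Cq
open Vale.Agent.P283M.Br Vale.Agent.P283R.Gl Var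

/-- orbit spaces with many boundary divisors, few of them over each point -/
theorem onN_fk (m : ℕ → ℕ) : OnN fun d _ _ f _ _ z => ∃ V, z.In V ∧ IsAffineOpen V ∧
    ConeBase (m d) (pre f V) := by
  classical
  intro d hd ε hε R hR
  obtain ⟨n, rfl⟩ : ∃ n, d = n + 1 := ⟨d - 1, by omega⟩
  obtain ⟨M, M1, H⟩ := Fk.wtk (m (n + 1)) n (∏ r ∈ R, r.den) ε
    (Finset.prod_pos fun r _ => r.den_pos) hε
  refine ⟨M, M1, fun X Z f ω B z a b c e s u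
    ⟨u1, u2, V, zV, hV, Y, φ, r, l, y, S, σ, lB, ch, pg, h1, h2, h3, gn⟩ =>
    (has_iff f ω B M z).2 ?_⟩
  obtain ⟨x, hx⟩ := s.2.2.1.surj z
  obtain ⟨_, -, -, -, ⟨ψ, rfl, ind⟩, -⟩ := ch x (show f x ∈ V from hx ▸ zV)
  obtain ⟨c', bs, kk, bT, bS⟩ := Fk.bsk38 Y l S σ h1 h2 h3
  let i3 : Algebra Y.o.K X.o.K := ψ.toRingHom.toAlgebra
  have i4 : IsScalarTower ℂ Y.o.K X.o.K := .of_algebraMap_eq fun c => (ψ.commutes c).symm
  have fm := Ck.O90.fam (W := pre f V) (x := x) (show f x ∈ V from hx ▸ zV) ψ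
    ⟨algebraicIndependent_iff.2 ind, fun x hx =>
      let ⟨U, a, b, c, e⟩ := ch x hx; ⟨U, a, b, c, e.2⟩⟩ pg kk.ok bT
  refine H42.sch (X := X.o) (Z := Z.o) M1 (fun v Λ Γ Γ' hK da T co lc nf =>
    @H Y.K X.K _ _ _ _ i3 i4 c' r l v Λ Γ Γ' bs y σ lB kk
      (Nat.cast_injective (fm.ext.ff'.trdeg.symm.trans hK.trdeg)) da
      ((Set.ext T : Cx.Tt n v Λ = {P | ∃ E : X.o.PrimeDiv, E.1 ∈ pre f V ∧ Gl.pq E = P}) ▸ fm)
      (fun Q o => ?_) co lc nf) a b ((pair_iff _ _ ω B).1 c) (C3.den e) s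
    ((fanoType_iff f ω).1 u1) ((nefOver_iff f _).1 u2) u hV zV
  obtain ⟨u', bv⟩ := Sch.basV (X := X.o) (Z := Z.o) s u hV zV
  obtain ⟨x', h', dm⟩ := bv.ctr Q.ring Q.con fun b hb => by
    by_cases b0 : b = 0
    · exact b0 ▸ zero_mem _
    refine (Pl.ord_nonneg_iff _ b0).1 (o b b0 fun R r => ?_)
    obtain ⟨F, k, rfl⟩ := (T R).1 r
    exact Pl.ord_nonneg_of_mem _ ((pq_is F _).2 (bv.reg b hb _ k))
  obtain ⟨D, d1, d2⟩ := gn x' h' _ rfl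
  have eF : ∀ (F : Y.PrimeDiv) (g : Y.K), ord g F = (pq (X := Y.o) F).ord g := fun F =>
    pq_ord (X := Y.o) F
  have eE : ∀ (E : X.PrimeDiv) (g : X.K), ord g E = (pq (X := X.o) E).ord g := fun E =>
    pq_ord (X := X.o) E
  have ev : ∀ (F : Y.PrimeDiv) (w : Fin l → ℤ), (w ⬝ᵥ fun j => (pq (X := Y.o) F).ord (σ j)) =
      ∑ j, w j * ord (σ j) F := fun F w => Finset.sum_congr rfl fun j _ => by rw [eF]
  refine ⟨D.image fun F => pq (X := Y.o) F.1, fun p k => ?_, Finset.card_image_le.trans d1,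
    fun p k => ?_, fun w k p t ⟨P, t1, t2, t3⟩ => ?_⟩
  · obtain ⟨F, -, rfl⟩ := Finset.mem_image.1 k
    exact (bS _).2 ⟨F.1, F.2.1, rfl⟩
  · obtain ⟨F, -, rfl⟩ := Finset.mem_image.1 k
    obtain ⟨E, μ, e1, e2, e3, e4⟩ := F.2.2
    exact ⟨_, (T _).2 ⟨E, e1, rfl⟩, Z60.lies e2 fun g _ => (eE E _).symm.trans
      ((e3 g).trans (congrArg _ (eF _ g))), (Fk.seen T h' dm E).1 e4⟩
  · obtain ⟨F, f1, rfl⟩ := (bS p).1 t
    obtain ⟨E, e1, rfl⟩ := (T P).1 t1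
    rw [ev]
    exact d2 w (fun F' k' => ev _ w ▸ k _ (Finset.mem_image_of_mem _ k')) F ⟨f1, E, _, e1, t2.e_pos,
      fun g => (eE E _).trans ((t2.ord g).trans (congrArg _ (eF F g).symm)),
      (Fk.seen T h' dm E).2 t3⟩

/-- the planar word is contained -/
theorem PlanarQuot.cone {l : ℕ} {X : Var} {V : X.X.Opens} (h : PlanarQuot l V) :
    ConeBase (8 * l) V := by
  classical
  obtain ⟨Y, φ, r, y, q1, q2, S, s, u, h1, h2, h3, h4⟩ := h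
  refine ⟨Y, φ, r, l, y, S, s, by omega, q1, q2, h1, h2, h3, fun x _ N e => ?_⟩
  have sb : ∀ F ∈ N, F ∈ S := fun F k => (e.subset k).1
  have fi : N.Finite := S.finite_toSet.subset sb
  have := fi.fintype
  obtain ⟨D, -, d2, d3⟩ := Ck.pln56 l N (fun F j => ord (s j) F.1) u Finset.univ fun F _ =>
    h4 F.1 (sb _ F.2)
  exact ⟨D, d2, fun m k F j => d3 m k ⟨F, j⟩ (Finset.mem_univ _)⟩

end Vale.Agent.P283R.Sl
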