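import Vale.Agent.P283R.Fk.St

/-!
# P283R, block FK: the centre on the affine base
-/

open Set CategoryTheory AlgebraicGeometry

noncomputable section

namespace Vale.Agent.P283R.Fk

open Vale.Agent.P289 (Pt)
open Vale.Agent.P287D Vale.Agent.P283M.Stm Vale.Agent.P283M.Stm.Var Vale.Agent.P297Z
open Vale.Agent.P283M Vale.Agent.P283M.Br
open Vale.Agent.P283R.Gl (pq pq_is pq_ord)

/-- **CEN** -/
theorem cen15 : CEN := by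
  intro X Z f V Q hf hV ⟨z₀, h₀⟩ hQ
  obtain ⟨x₀, rfl⟩ := hf.2.2.1.surj z₀
  have : Nonempty ↑(f ⁻¹ᵁ V) := ⟨⟨x₀, h₀⟩⟩
  have := hf.2.2.2 V
  have r1 : ∀ b, ∀ E : X.PrimeDiv, E.1 ∈ f ⁻¹ᵁ V → Am.pl f V b ∈ (pq E).ring := fun b E e =>
    (pq_is E _).2 (Am.mem_reg.1 (Am.pl_reg f V b) _ e :)
  have r2 : ∀ b, Am.pl f V b ∈ Q.ring := fun b => by
    by_cases z : Am.pl f V b = 0
    · exact z ▸ zero_mem _
    · exact (Pl.ord_nonneg_iff _ z).1 (hQ _ z fun E e => Pl.ord_nonneg_of_mem _ (r1 b E e))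
  let p : PrimeSpectrum Γ(Z.X, V) := PrimeSpectrum.comap ((Am.pl f V).codRestrict Q.ring r2)
    (IsLocalRing.closedPoint Q.ring)
  have un : ∀ (P : Pl X.K) (a : X.K), a ≠ 0 → a ∈ P.ring → (a⁻¹ ∈ P.ring ↔ ¬ 0 < P.ord a) :=
    fun P a a0 _ => by rw [← Pl.ord_nonneg_iff _ (inv_ne_zero a0), Pl.ord_inv]; omega
  have hp : ∀ b, hV.fromSpec p ∈ Z.X.basicOpen b ↔
      Am.pl f V b ≠ 0 ∧ (Am.pl f V b)⁻¹ ∈ Q.ring := fun b => by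
    change p ∈ hV.fromSpec ⁻¹ᵁ Z.X.basicOpen b ↔ _
    rw [hV.fromSpec_preimage_basicOpen]
    change ¬ (⟨Am.pl f V b, r2 b⟩ : Q.ring) ∈ IsLocalRing.maximalIdeal Q.ring ↔ _
    rw [IsLocalRing.notMem_maximalIdeal, Submonoid.isUnit_iff_and]
  have hE : ∀ b, ∀ E : X.PrimeDiv, E.1 ∈ f ⁻¹ᵁ V → (E.1 ∈ f ⁻¹ᵁ Z.X.basicOpen b ↔
      Am.pl f V b ≠ 0 ∧ (Am.pl f V b)⁻¹ ∈ (pq E).ring) := fun b E e =>
    (Am.un_pl (f := f) (V := V) e b).symm.trans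
      ⟨fun u => ⟨u.1, (pq_is E _).2 u.2.2⟩, fun u => ⟨u.1, (pq_is E _).1 (r1 b E e), (pq_is E _).1 u.2⟩⟩
  have zV : hV.fromSpec p ∈ V := by
    have : hV.fromSpec p ∈ range hV.fromSpec := ⟨p, rfl⟩
    rwa [hV.range_fromSpec] at this
  refine ⟨hV.fromSpec p, zV, fun E e => ⟨fun h a a0 ha pos => ?_, fun h U hU => ?_⟩⟩
  · obtain ⟨b, rfl⟩ := Am.exists_pl f V (g := a) (Am.mem_reg.2 fun x hx =>
      (har X a x fun F hF => pq_ord F a ▸ ha F (hF.mem_open (f ⁻¹ᵁ V).isOpen hx) :))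
    by_contra n
    exact (un _ _ a0 (r1 b E e)).1 ((hE b E e).1 (h _ ((hp b).2 ⟨a0, (un Q _ a0 (r2 b)).2 n⟩))).2 pos
  · obtain ⟨b, le, hb⟩ := hV.exists_basicOpen_le (⟨_, hU⟩ : U) zV
    obtain ⟨b0, b1⟩ := (hp b).1 hb
    exact le ((hE b E e).2 ⟨b0, (un _ _ b0 (r1 b E e)).2 fun pos => (un Q _ b0 (r2 b)).1 b1
      (h _ b0 (fun F k => Pl.ord_nonneg_of_mem _ (r1 b F k)) pos)⟩)

end Vale.Agent.P283R.Fk
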