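import Vale.Agent.P283R.Fk.All
import Vale.Agent.P283R.Fk.Cen15

/-!
# P283R, block FK: any neighbourhood in the base
-/

set_option linter.all false

open Set CategoryTheory AlgebraicGeometry

noncomputable section

namespace Vale.Agent.P283R.Sl

open Vale.Agent.P287D Vale.Agent.P283M Vale.Agent.P297Z Cx Cy Cq
open Vale.Agent.P283M.Br Vale.Agent.P283R.Gl Var

/-- orbit spaces with many boundary divisors, few of them over each point of the base -/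
theorem onN_fq (m : ℕ → ℕ) : OnN fun d _ _ f _ _ z => ∃ W, z.In W ∧ FibreQuot (m d) f W := by
  classical
  intro d hd ε hε R hR
  obtain ⟨n, rfl⟩ : ∃ n, d = n + 1 := ⟨d - 1, by omega⟩
  obtain ⟨M, M1, H⟩ := Fk.wtk (m (n + 1)) n (∏ r ∈ R, r.den) ε
    (Finset.prod_pos fun r _ => r.den_pos) hε
  refine ⟨M, M1, fun X Z f ω B z a b c e s u
    ⟨u1, u2, W, zW, Y, φ, r, l, y, S, σ, lB, ch, pg, h1, h2, h3, gn⟩ =>
    (has_iff f ω B M z).2 ?_⟩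
  obtain ⟨x, hx⟩ := s.2.2.1.surj z
  obtain ⟨_, -, -, -, ⟨ψ, rfl, ind⟩, -⟩ := ch x (show f x ∈ W from hx ▸ zW)
  obtain ⟨c', bs, kk, bT, bS⟩ := Fk.bsk38 Y l S σ h1 h2 h3
  let i3 : Algebra Y.o.K X.o.K := ψ.toRingHom.toAlgebra
  have i4 : IsScalarTower ℂ Y.o.K X.o.K := .of_algebraMap_eq fun c => (ψ.commutes c).symm
  obtain ⟨V, v0, hV, zV, co⟩ := @sum_co X.o Y.o Z.o f z W r i3 i4 y s zW
    ⟨algebraicIndependent_iff.2 ind, fun x hx =>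
      let ⟨U, a, b, c, e⟩ := ch x hx; ⟨U, a, b, c, e.2⟩⟩
  have fm := Ck.O90.fam (W := pre f V) (x := x) (show f x ∈ V from hx ▸ zV) ψ co
    (fun E e => pg E (v0 e)) kk.ok bT
  refine H42.sch (X := X.o) (Z := Z.o) M1 (fun v Λ Γ Γ' hK da T co lc nf =>
    @H Y.K X.K _ _ _ _ i3 i4 c' r l v Λ Γ Γ' bs y σ lB kk
      (Nat.cast_injective (fm.ext.ff'.trdeg.symm.trans hK.trdeg)) da
      ((Set.ext T : Cx.Tt n v Λ = {P | ∃ E : X.o.PrimeDiv, E.1 ∈ pre f V ∧ Gl.pq E = P}) ▸ fm)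
      (fun Q o => ?_) co lc nf) a b ((pair_iff _ _ ω B).1 c) (C3.den e) s
    ((fanoType_iff f ω).1 u1) ((nefOver_iff f _).1 u2) u hV zV
  have al : ∀ g : X.K, (∀ P ∈ Cx.Tt n v Λ, 0 ≤ P.ord g) ↔ ∀ E : X.o.PrimeDiv, E.1 ∈ f ⁻¹ᵁ V →
      0 ≤ (pq E).ord g := fun g => ⟨fun k E t => k _ ((T _).2 ⟨E, t, rfl⟩), fun k P t => by
    obtain ⟨E, t', rfl⟩ := (T P).1 t
    exact k E t'⟩
  obtain ⟨z', h', cn⟩ := Fk.cen15 X.o Z.o f V Q s hV ⟨z, zV⟩ fun g g0 k => o g g0 ((al g).2 k)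
  obtain ⟨D, d0, d1, d2⟩ := gn z' (v0 h') (S.filter _) fun F => Finset.mem_filter
  have eF : ∀ (F : Y.PrimeDiv) (g : Y.K), ord g F = (pq (X := Y.o) F).ord g := fun F =>
    pq_ord (X := Y.o) F
  have eE : ∀ (E : X.PrimeDiv) (g : X.K), ord g E = (pq (X := X.o) E).ord g := fun E =>
    pq_ord (X := X.o) E
  have ev : ∀ (F : Y.PrimeDiv) (w : Fin l → ℤ), (w ⬝ᵥ fun j => (pq (X := Y.o) F).ord (σ j)) =
      ∑ j, w j * ord (σ j) F := fun F w => Finset.sum_congr rfl fun j _ => by rw [eF]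
  refine ⟨D.image fun F => pq (X := Y.o) F, fun p k => ?_, Finset.card_image_le.trans d1,
    fun p k => ?_, fun w k p t ⟨P, t1, t2, t3⟩ => ?_⟩
  · obtain ⟨F, k', rfl⟩ := Finset.mem_image.1 k
    exact (bS _).2 ⟨F, (Finset.mem_filter.1 (d0 k')).1, rfl⟩
  · obtain ⟨F, k', rfl⟩ := Finset.mem_image.1 k
    obtain ⟨E, μ, e2, e4, e3⟩ := (Finset.mem_filter.1 (d0 k')).2
    exact ⟨_, (T _).2 ⟨E, e4 V h', rfl⟩, Z60.lies e2 fun g _ => (eE E _).symm.trans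
      ((e3 g).trans (congrArg _ (eF _ g))), fun g g0 k => (cn E (e4 V h')).1 e4 g g0 ((al g).1 k)⟩
  · obtain ⟨F, f1, rfl⟩ := (bS p).1 t
    obtain ⟨E, e1, rfl⟩ := (T P).1 t1
    rw [ev]
    exact d2 w (fun F' k' => ev _ w ▸ k _ (Finset.mem_image_of_mem _ k')) F
      (Finset.mem_filter.2 ⟨f1, E, _, t2.e_pos,
        (cn E e1).2 fun g g0 k => t3 g g0 ((al g).2 k),
        fun g => (eE E _).trans ((t2.ord g).trans (congrArg _ (eF F g).symm))⟩)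

end Vale.Agent.P283R.Sl
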