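import Vale.Agent.P283R.Ck.St
import Vale.Agent.P283R.Sl.Fk

/-!
# P283R, block FK: many boundary divisors, the cone condition over each point, the statements
-/

open Set CategoryTheory AlgebraicGeometry

noncomputable section

namespace Vale.Agent.P283R.Fk

open Vale.Agent.P287D Vale.Agent.P283M Cx Cy Cq
open Vale.Agent.P283R.To (mon)
open Wc (Sec)
open Ck (Mb Rs)

section defs

variable {L K : Type} [Field L] [Algebra ℂ L] [Field K] [Algebra ℂ K] [Algebra L K] {c l : ℕ}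

/-- the base with many boundary divisors -/
structure Kk (b : Ba L c) (s : Fin l → L) : Prop where
  ok : b.Ok (b.S.card + l)
  mb : Mb c b.T b.S s
  one : ∀ p ∈ b.S, b.lam p = 1
  sg : ∀ j, s j ∈ range b.σ

/-- the page `p` carries a prime through the centre of `Q` -/
def Nq (T : Set (Pl K)) (Q : Pl K) (p : Pl L) : Prop :=
  ∃ P ∈ T, At P p ∧ ∀ a : K, a ≠ 0 → (∀ P' ∈ T, 0 ≤ P'.ord a) → 0 < P.ord a → 0 < Q.ord a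

/-- at most `B` of the members of `S` with `N` generate the cone of all of them -/
def Gq (B : ℕ) (S : Finset (Pl L)) (s : Fin l → L) (N : Pl L → Prop) : Prop :=
  ∃ Δ ⊆ S, Δ.card ≤ B ∧ (∀ p ∈ Δ, N p) ∧ ∀ m : Fin l → ℤ,
    (∀ p ∈ Δ, 0 ≤ m ⬝ᵥ fun j => p.ord (s j)) → ∀ p ∈ S, N p → 0 ≤ m ⬝ᵥ fun j => p.ord (s j)

end defs

/-- **RS0**: the smaller base exists -/
def RS0 : Prop := ∀ (L : Type) [Field L] [Algebra ℂ L] (c l : ℕ) (b : Ba L c) (s : Fin l → L)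
  (Δ : Finset (Pl L)), Kk b s → Δ ⊆ b.S → ∃ b', Rs b b' s Δ

/-- **CRK**: Caratheodory on the primes over the boundary -/
def CRK : Prop := ForA fun L K _ _ _ _ _ _ ρ b y T => ∀ (B l : ℕ) (s : Fin l → L) Q ξ, Kk b s →
  Fm b y T → Rep L y T Q ξ → Gq B b.S s (fun p => ∃ P, ξ P ≠ 0 ∧ At P p) →
    ∃ (ξ' : Pl K → ℝ) (t : Finset (Pl K)), Rep L y T Q ξ' ∧
    t.card ≤ B + l + ρ ∧ (∀ P, P ∈ t ↔ P ∈ Kt y T b.S ∧ ξ' P ≠ 0) ∧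
      ∀ P ∉ Kt y T b.S, 0 < ξ P → 0 < ξ' P

open Classical in
/-- **WIK**: the wide state -/
def WIK : Prop := ∀ (B q : ℕ) (ε : ℝ), 0 < q → 0 < ε → ∃ W m : ℕ, 2 ≤ m ∧
  ForB fun L K _ _ _ _ _ _ c r ρ b y u T => ∀ (l : ℕ) (s : Fin l → L) n ψ κ Q ξ I J
    (t : Finset (Pl K)), Kk b s → l ≤ B → c + r + ρ ≤ B → J.card ≤ B → t.card ≤ B →
    Sc W n q ε b y u T ψ κ Q ξ I (J ∪ b.S) →
    (∀ P ∈ Kt (Fin.append y u) T (J ∪ b.S), ξ P ≠ 0 → P ∈ t) →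
    Sec q m (cz b (Fin.append y u)) T (lv (Fin.append y u) ψ) κ Q

/-- **PQK**: the theorem at one place -/
def PQK : Prop := ∀ (B d q : ℕ) (ε : ℝ), 0 < q → 0 < ε → ∃ m : ℕ, 2 ≤ m ∧
  ForA fun L K _ _ _ _ _ _ _ b y T => ∀ (l : ℕ) (s : Fin l → L) n g κ (Q : Pl K), l ≤ B → Kk b s →
    Pk n d q ε b y T g κ → (∀ a : K, a ≠ 0 → (∀ P ∈ T, 0 ≤ P.ord a) → 0 ≤ Q.ord a) →
    Gq B b.S s (Nq T Q) → Sec q m (cz b y) T g κ Q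

/-- **WTK**: the theorem on the tier -/
def WTK : Prop := ∀ (B n q : ℕ) (ε : ℝ), 0 < q → 0 < ε → ∃ M : ℕ, 1 ≤ M ∧
  ∀ (L K : Type) [Field L] [Algebra ℂ L] [Field K] [Algebra ℂ K] [Algebra L K]
    [IsScalarTower ℂ L K] (c ρ l : ℕ) (u : Finset K) (Λ Γ Γ' : BD K) (b : Ba L c) (y : Fin ρ → K)
    (s : Fin l → L), l ≤ B → Kk b s → c + ρ = n + 1 → Dat n u Λ Γ Γ' → Fm b y (Tt n u Λ) →
    (∀ Q : Pl K, (∀ a : K, a ≠ 0 → (∀ P ∈ Tt n u Λ, 0 ≤ P.ord a) → 0 ≤ Q.ord a) →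
      Gq B b.S s (Nq (Tt n u Λ) Q)) →
    (∀ R ∈ Tt n u Λ, dsc (n + 1) Γ R ≤ 0 ∧ ∃ m : ℤ, q * dsc (n + 1) Γ R = m) →
    (∀ R, Ov u R → ε ≤ 1 + dsc (n + 1) Γ R) → NefO n K u (-Γ) → Cpl n M u Λ Γ

open Sl Sl.Var in
/-- **BSK**: the base -/
def BSK : Prop := ∀ (Y : Sl.Var) (l : ℕ) (S : Finset Y.PrimeDiv) (s : Fin l → Y.K),
  (∀ G : Y.Div, ∃ g, g ≠ 0 ∧ ∀ F ∉ S, ord g F = G F) →
  (∀ j, s j ≠ 0 ∧ ∀ F ∉ S, 0 ≤ ord (s j) F) →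
  (∀ g, (∀ F ∉ S, 0 ≤ ord g F) → g ∈ Submodule.span ℂ
    {x | (∃ w : Fin l → ℕ, x = ∏ j, s j ^ w j) ∧ ∀ F ∈ S, ord g F ≤ ord x F}) →
  ∃ (c : ℕ) (b : Ba Y.K c), Kk b s ∧ b.T = range (Gl.pq (X := Y.o)) ∧
    ∀ p, p ∈ b.S ↔ ∃ F ∈ S, Gl.pq (X := Y.o) F = p

open Vale.Agent.P289 (Pt) in
open Stm Stm.Var in
/-- **CEN**: the centre on the affine base -/
def CEN : Prop := ∀ (X Z : Var) (f : X.X ⟶ Z.X) (V : Z.X.Opens) (Q : Pl X.K), Contraction f →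
  IsAffineOpen V → (V : Set Z.X).Nonempty →
  (∀ a : X.K, a ≠ 0 → (∀ E : X.PrimeDiv, E.1 ∈ f ⁻¹ᵁ V → 0 ≤ (Gl.pq E).ord a) → 0 ≤ Q.ord a) →
  ∃ z : Pt Z.X, z ∈ V ∧ ∀ E : X.PrimeDiv, E.1 ∈ f ⁻¹ᵁ V →
    ((∀ U : Z.X.Opens, z ∈ U → E.1 ∈ f ⁻¹ᵁ U) ↔ ∀ a : X.K, a ≠ 0 →
      (∀ E' : X.PrimeDiv, E'.1 ∈ f ⁻¹ᵁ V → 0 ≤ (Gl.pq E').ord a) → 0 < (Gl.pq E).ord a →
        0 < Q.ord a)

open Sl Sl.Var in
/-- **ONK** -/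
def ONK : Prop := ∀ M : ℕ → ℕ, On fun d _ Z f ω B z => FanoType f ω ∧ NefOver f (-logCan ω B) ∧
  ∃ W : Z.X.Opens, z.In W ∧ FibreQuot (M d) f W

/-- **HLK**: integer Helly, `Cq.MON` over the smaller bases -/
def HLK : Prop := RS0 → Ck.RES → WIK

/-- **PQS** -/
def PQS : Prop := RS0 → Ck.RES → CRK → WIK → PQK

/-- **ONS** -/
def ONS : Prop := BSK → CEN → WTK → ONK

end Vale.Agent.P283R.Fk
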